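import Vale.Agent.P202.Mix.TeiA
import Mathlib.RingTheory.ReesAlgebra

/-!
# Perfect ideals and their Witt vectors (P177)

For an ideal `J` of a commutative ring `C` the set `{x | x_n ∈ J ^ (p ^ n)}` is an ideal of the ring
of Witt vectors of `C`.  For a perfect ring `C` of characteristic `p` and a perfect ideal `J`
(`J ^ p ≤ φ(J)`) this ideal `W(J)` satisfies `W(J) ∩ p W(C) = p W(J)` and `W(J) / p = J`.
-/

namespace P177.PJ

open WittVector Polynomial

variable {p : ℕ} [hp : Fact (Nat.Prime p)]

section General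

variable {C : Type*} [CommRing C]

/-- The Rees algebra of `J` inside `C[X]`, and the criterion for `x_n ∈ J ^ (p ^ n)`. -/
theorem coeff_mem_iff (J : Ideal C) (x : WittVector p C) :
    (∀ n, x.coeff n ∈ J ^ p ^ n) ↔
      ∃ x' : WittVector p (reesAlgebra J),
        WittVector.map ((reesAlgebra J).val : reesAlgebra J →+* C[X]) x' =
          teichmuller p (X : C[X]) * WittVector.map (Polynomial.C) x := by
  constructor
  · intro h
    refine ⟨WittVector.mk p fun n => ⟨monomial (p ^ n) (x.coeff n), ?_⟩, ?_⟩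
    · rw [mem_reesAlgebra_iff]
      intro i
      rw [coeff_monomial]
      split_ifs with hi
      · rw [← hi]; exact h n
      · exact zero_mem _
    · ext1 n
      rw [WittVector.map_coeff, coeff_mk, P202.Mix.teichmuller_mul_coeff, WittVector.map_coeff]
      change monomial (p ^ n) (x.coeff n) = _
      rw [← C_mul_X_pow_eq_monomial, mul_comm]
  · rintro ⟨x', hx'⟩ n
    have h1 := congrArg (fun z => (z.coeff n).coeff (p ^ n)) hx'
    simp only [WittVector.map_coeff, P202.Mix.teichmuller_mul_coeff] at h1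
    rw [mul_comm, coeff_C_mul, coeff_X_pow_self, mul_one] at h1
    rw [← h1]
    exact (mem_reesAlgebra_iff J _).1 (x'.coeff n).2 (p ^ n)

/-- The ideal `W(J) = {x | x_n ∈ J ^ (p ^ n)}` of the Witt vectors of `C`. -/
noncomputable def WJ (p : ℕ) [hp : Fact (Nat.Prime p)] (J : Ideal C) : Ideal (WittVector p C) where
  carrier := {x | ∀ n, x.coeff n ∈ J ^ p ^ n}
  add_mem' := by
    intro x y hx hy
    obtain ⟨x', hx'⟩ := (coeff_mem_iff J x).1 hx
    obtain ⟨y', hy'⟩ := (coeff_mem_iff J y).1 hy
    refine (coeff_mem_iff J (x + y)).2 ⟨x' + y', ?_⟩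
    rw [map_add, hx', hy', map_add, mul_add]
  zero_mem' := by
    intro n
    rw [zero_coeff]; exact zero_mem _
  smul_mem' := by
    intro c x hx
    obtain ⟨x', hx'⟩ := (coeff_mem_iff J x).1 hx
    refine (coeff_mem_iff J (c • x)).2 ⟨WittVector.map (algebraMap C (reesAlgebra J)) c * x', ?_⟩
    rw [map_mul, hx', smul_eq_mul, map_mul]
    have h1 : WittVector.map ((reesAlgebra J).val : reesAlgebra J →+* C[X])
        (WittVector.map (algebraMap C (reesAlgebra J)) c) = WittVector.map (Polynomial.C) c := by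
      ext1 n
      simp only [WittVector.map_coeff]
      rfl
    rw [h1]; ring

theorem mem_WJ {J : Ideal C} {x : WittVector p C} : x ∈ WJ p J ↔ ∀ n, x.coeff n ∈ J ^ p ^ n :=
  Iff.rfl

theorem coeff_zero_mem {J : Ideal C} {x : WittVector p C} (h : x ∈ WJ p J) : x.coeff 0 ∈ J := by
  simpa using h 0

theorem teichmuller_mem_WJ {J : Ideal C} {a : C} (ha : a ∈ J) : teichmuller p a ∈ WJ p J := by
  intro n
  rcases Nat.eq_zero_or_pos n with rfl | hn
  · simpa using ha
  · rw [teichmuller_coeff_pos p a n hn]; exact zero_mem _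

theorem WJ_mono {J K : Ideal C} (h : J ≤ K) : WJ p J ≤ WJ p K :=
  fun _ hx n => Ideal.pow_right_mono h _ (hx n)

theorem WJ_top : WJ p (⊤ : Ideal C) = ⊤ := by
  ext x; simp [mem_WJ, Ideal.top_pow]

end General

section Perfect

variable {C : Type*} [CommRing C] [CharP C p]

/-- An ideal is perfect if `J ^ p ≤ φ(J)`; over a perfect ring this means that `J` is closed under
the products `a_1^{1/p} ... a_p^{1/p}`. -/
def IsPerf (p : ℕ) [Fact (Nat.Prime p)] {C : Type*} [CommRing C] [CharP C p] (J : Ideal C) : Prop :=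
  J ^ p ≤ J.map (_root_.frobenius C p)

variable [PerfectRing C p]

theorem mem_map_frobenius {J : Ideal C} {a : C} :
    a ∈ J.map (_root_.frobenius C p) ↔ (_root_.frobeniusEquiv C p).symm a ∈ J := by
  have h : J.map (_root_.frobenius C p) = J.map (_root_.frobeniusEquiv C p : C →+* C) := rfl
  rw [h]
  constructor
  · intro ha
    have := (Ideal.mem_map_of_equiv (_root_.frobeniusEquiv C p) a).1 ha
    obtain ⟨b, hb, rfl⟩ := this
    simpa using hb
  · intro ha
    exact (Ideal.mem_map_of_equiv (_root_.frobeniusEquiv C p) a).2 ⟨_, ha, by simp⟩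

theorem IsPerf.map_pow_eq {J : Ideal C} (hJ : IsPerf p J) (n : ℕ) :
    J ^ p ^ n = J.map (iterateFrobeniusEquiv C p n : C →+* C) := by
  apply le_antisymm
  · induction n with
    | zero =>
      intro a ha
      rw [pow_zero, pow_one] at ha
      exact (Ideal.mem_map_of_equiv (iterateFrobeniusEquiv C p 0) a).2
        ⟨a, ha, iterateFrobeniusEquiv_zero_apply C p a⟩
    | succ n ih =>
      rw [pow_succ', pow_mul]
      refine (Ideal.pow_right_mono hJ (p ^ n)).trans ?_
      rw [← Ideal.map_pow]
      refine (Ideal.map_mono ih).trans ?_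
      rw [Ideal.map_map]
      apply le_of_eq
      congr 1
      ext a
      change (_root_.frobenius C p) (iterateFrobeniusEquiv C p n a) =
        iterateFrobeniusEquiv C p (n + 1) a
      rw [frobenius_def, iterateFrobeniusEquiv_def, iterateFrobeniusEquiv_def, pow_succ, pow_mul]
  · rw [Ideal.map_le_iff_le_comap]
    intro a ha
    rw [Ideal.mem_comap]
    change iterateFrobeniusEquiv C p n a ∈ _
    rw [iterateFrobeniusEquiv_def]
    exact Ideal.pow_mem_pow ha _

theorem IsPerf.mem_pow_iff {J : Ideal C} (hJ : IsPerf p J) (n : ℕ) (a : C) :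
    a ∈ J ^ p ^ n ↔ (iterateFrobeniusEquiv C p n).symm a ∈ J := by
  rw [hJ.map_pow_eq]
  constructor
  · intro ha
    obtain ⟨b, hb, rfl⟩ := (Ideal.mem_map_of_equiv (iterateFrobeniusEquiv C p n) a).1 ha
    rwa [RingEquiv.symm_apply_apply]
  · intro ha
    exact (Ideal.mem_map_of_equiv (iterateFrobeniusEquiv C p n) a).2
      ⟨_, ha, RingEquiv.apply_symm_apply _ _⟩

theorem IsPerf.root_mem {J : Ideal C} (hJ : IsPerf p J) {n : ℕ} {a : C} (ha : a ∈ J ^ p ^ (n + 1)) :
    (_root_.frobeniusEquiv C p).symm a ∈ J ^ p ^ n := by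
  rw [hJ.mem_pow_iff] at ha ⊢
  rw [iterateFrobeniusEquiv_symm_add_apply, iterateFrobeniusEquiv_one] at ha
  exact ha

omit [PerfectRing C p] in
theorem isPerf_span_singleton (a : C) : IsPerf p (Ideal.span {a}) := by
  rw [IsPerf, Ideal.span_singleton_pow, Ideal.span_singleton_le_iff_mem]
  exact Ideal.mem_map_of_mem (_root_.frobenius C p) (Ideal.mem_span_singleton_self a)

omit [PerfectRing C p] in
theorem isPerf_top : IsPerf p (⊤ : Ideal C) := by
  rw [← Ideal.span_singleton_one]; exact isPerf_span_singleton 1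

omit [PerfectRing C p] in
theorem isPerf_bot : IsPerf p (⊥ : Ideal C) := by
  rw [← Ideal.span_singleton_zero]; exact isPerf_span_singleton 0

omit [PerfectRing C p] in
theorem IsPerf.mul {J K : Ideal C} (hJ : IsPerf p J) (hK : IsPerf p K) : IsPerf p (J * K) := by
  rw [IsPerf, mul_pow, Ideal.map_mul]
  exact Ideal.mul_mono hJ hK

omit [PerfectRing C p] in
theorem IsPerf.iSup_directed {ι : Type*} [Nonempty ι] {J : ι → Ideal C}
    (hd : Directed (· ≤ ·) J) (h : ∀ i, IsPerf p (J i)) : IsPerf p (⨆ i, J i) := by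
  rw [IsPerf]
  have key : ∀ n : ℕ, (⨆ i, J i) ^ n ≤ ⨆ i, (J i) ^ n := by
    intro n
    induction n with
    | zero => simp
    | succ n ih =>
      rw [pow_succ]
      refine (Ideal.mul_mono_left ih).trans ?_
      rw [Ideal.mul_le]
      intro r hr s hs
      have hd' : Directed (· ≤ ·) fun i => J i ^ n := fun i j => by
        obtain ⟨k, hik, hjk⟩ := hd i j
        exact ⟨k, Ideal.pow_right_mono hik n, Ideal.pow_right_mono hjk n⟩
      obtain ⟨i, hi⟩ := (Submodule.mem_iSup_of_directed _ hd').1 hr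
      obtain ⟨j, hj⟩ := (Submodule.mem_iSup_of_directed _ hd).1 hs
      obtain ⟨k, hik, hjk⟩ := hd i j
      refine (Submodule.mem_iSup_of_mem k ?_)
      rw [pow_succ]
      exact Ideal.mul_mem_mul (Ideal.pow_right_mono hik n hi) (hjk hj)
  refine (key p).trans (iSup_le fun i => (h i).trans (Ideal.map_mono (le_iSup J i)))

theorem IsPerf.iInf {ι : Type*} {J : ι → Ideal C} (h : ∀ i, IsPerf p (J i)) :
    IsPerf p (⨅ i, J i) := by
  intro a ha
  rw [mem_map_frobenius, Submodule.mem_iInf]
  intro i
  rw [← mem_map_frobenius]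
  exact h i (Ideal.pow_right_mono (iInf_le J i) p ha)

/-- The `n`-th approximation `φ^{-n}(J^{p^n})` of the perfect closure. -/
noncomputable def perfN (p : ℕ) [Fact (Nat.Prime p)] {C : Type*} [CommRing C] [CharP C p]
    (J : Ideal C) (n : ℕ) : Ideal C :=
  (J ^ p ^ n).comap (iterateFrobenius C p n)

omit [PerfectRing C p] in
theorem mem_perfN {J : Ideal C} {n : ℕ} {a : C} : a ∈ perfN p J n ↔ a ^ p ^ n ∈ J ^ p ^ n := by
  rw [perfN, Ideal.mem_comap, iterateFrobenius_def]

omit [PerfectRing C p] in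
theorem perfN_mono (J : Ideal C) : Monotone (perfN p J) := by
  apply monotone_nat_of_le_succ
  intro n a ha
  rw [mem_perfN] at ha ⊢
  rw [pow_succ, pow_mul, pow_mul]
  exact Ideal.pow_mem_pow ha p

/-- The perfect closure of an ideal. -/
noncomputable def perfCl (p : ℕ) [Fact (Nat.Prime p)] {C : Type*} [CommRing C] [CharP C p]
    (J : Ideal C) : Ideal C := ⨆ n, perfN p J n

omit [PerfectRing C p] in
theorem mem_perfCl {J : Ideal C} {a : C} : a ∈ perfCl p J ↔ ∃ n, a ^ p ^ n ∈ J ^ p ^ n := by
  rw [perfCl, Submodule.mem_iSup_of_directed _ (perfN_mono J).directed_le]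
  simp only [mem_perfN]

omit [PerfectRing C p] in
theorem le_perfCl (J : Ideal C) : J ≤ perfCl p J := fun a ha =>
  mem_perfCl.2 ⟨0, by simpa using ha⟩

theorem perfN_pow (J : Ideal C) (n m : ℕ) :
    perfN p J n ^ m = ((J ^ p ^ n) ^ m).comap (iterateFrobenius C p n) := by
  have h : ∀ K : Ideal C, K.comap (iterateFrobenius C p n) =
      K.map ((iterateFrobeniusEquiv C p n).symm : C →+* C) := by
    intro K
    ext a
    rw [Ideal.mem_comap]
    constructor
    · intro ha
      refine (Ideal.mem_map_of_equiv (iterateFrobeniusEquiv C p n).symm a).2 ⟨_, ha, ?_⟩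
      exact RingEquiv.symm_apply_apply (iterateFrobeniusEquiv C p n) a
    · intro ha
      obtain ⟨b, hb, rfl⟩ := (Ideal.mem_map_of_equiv (iterateFrobeniusEquiv C p n).symm a).1 ha
      have : iterateFrobenius C p n ((iterateFrobeniusEquiv C p n).symm b) = b :=
        RingEquiv.apply_symm_apply (iterateFrobeniusEquiv C p n) b
      rw [this]; exact hb
  rw [perfN, h, h, ← Ideal.map_pow]

theorem isPerf_perfCl (J : Ideal C) : IsPerf p (perfCl p J) := by
  intro a ha
  rw [mem_map_frobenius]
  have h1 : a ∈ ⨆ n, perfN p J n ^ p := by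
    have key : ∀ m : ℕ, (⨆ n, perfN p J n) ^ m ≤ ⨆ n, perfN p J n ^ m := by
      intro m
      induction m with
      | zero => simp
      | succ m ih =>
        rw [pow_succ]
        refine (Ideal.mul_mono_left ih).trans ?_
        rw [Ideal.mul_le]
        intro r hr s hs
        have hd' : Directed (· ≤ ·) fun i => perfN p J i ^ m := fun i j =>
          ⟨max i j, Ideal.pow_right_mono (perfN_mono J (le_max_left i j)) m,
            Ideal.pow_right_mono (perfN_mono J (le_max_right i j)) m⟩
        obtain ⟨i, hi⟩ := (Submodule.mem_iSup_of_directed _ hd').1 hr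
        obtain ⟨j, hj⟩ := (Submodule.mem_iSup_of_directed _ (perfN_mono J).directed_le).1 hs
        refine (Submodule.mem_iSup_of_mem (max i j) ?_)
        rw [pow_succ]
        exact Ideal.mul_mem_mul (Ideal.pow_right_mono (perfN_mono J (le_max_left i j)) m hi)
          (perfN_mono J (le_max_right i j) hj)
    exact key p ha
  have hd : Directed (· ≤ ·) fun i => perfN p J i ^ p := fun i j =>
    ⟨max i j, Ideal.pow_right_mono (perfN_mono J (le_max_left i j)) p,
      Ideal.pow_right_mono (perfN_mono J (le_max_right i j)) p⟩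
  obtain ⟨n, hn⟩ := (Submodule.mem_iSup_of_directed _ hd).1 h1
  rw [perfN_pow, Ideal.mem_comap, iterateFrobenius_def, ← pow_mul, ← pow_succ] at hn
  refine mem_perfCl.2 ⟨n + 1, ?_⟩
  have : (_root_.frobeniusEquiv C p).symm a ^ p ^ (n + 1) = a ^ p ^ n := by
    rw [pow_succ', pow_mul, ← frobenius_def (p := p), frobenius_apply_frobeniusEquiv_symm]
  rw [this]; exact hn

/-- The perfect closure is the smallest perfect ideal containing `J`. -/
theorem perfCl_le {J K : Ideal C} (h : J ≤ K) (hK : IsPerf p K) : perfCl p J ≤ K := by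
  intro a ha
  obtain ⟨n, hn⟩ := mem_perfCl.1 ha
  have h1 := (hK.mem_pow_iff n _).1 (Ideal.pow_right_mono h _ hn)
  have h2 : (iterateFrobeniusEquiv C p n).symm (a ^ p ^ n) = a :=
    RingEquiv.symm_apply_apply (iterateFrobeniusEquiv C p n) a
  rwa [h2] at h1

/-- `J` is perfect iff all products `a_1^{1/p} ... a_p^{1/p}` of elements of `J` are in `J`. -/
theorem isPerf_iff_prod {J : Ideal C} :
    IsPerf p J ↔ ∀ f : Fin p → C, (∀ i, f i ∈ J) →
      ∏ i, (_root_.frobeniusEquiv C p).symm (f i) ∈ J := by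
  constructor
  · intro h f hf
    rw [← map_prod, ← mem_map_frobenius]
    apply h
    have h1 : ∏ i, f i ∈ ∏ _i : Fin p, J := Ideal.prod_mem_prod fun i _ => hf i
    simpa using h1
  · intro h
    have key : ∀ a ∈ J ^ p, (_root_.frobeniusEquiv C p).symm a ∈ J := by
      intro a ha
      rw [Submodule.pow_eq_span_pow_set] at ha
      refine Submodule.span_induction (p := fun a _ => (_root_.frobeniusEquiv C p).symm a ∈ J)
        ?_ ?_ ?_ ?_ ha
      · intro x hx
        obtain ⟨f, rfl⟩ := Set.mem_pow.1 hx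
        rw [List.prod_ofFn, map_prod]
        exact h (fun i => (f i : C)) fun i => (f i).2
      · rw [map_zero]; exact zero_mem _
      · intro x y _ _ hx hy
        rw [map_add]; exact add_mem hx hy
      · intro c x _ hx
        rw [smul_eq_mul, map_mul]; exact Ideal.mul_mem_left _ _ hx
    intro a ha
    exact mem_map_frobenius.2 (key a ha)

/-- The key property: an element of `W(J)` with vanishing first coefficient is `p` times an
element of `W(J)`. -/
theorem exists_mul_p {J : Ideal C} (hJ : IsPerf p J) {x : WittVector p C} (hx : x ∈ WJ p J)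
    (h0 : x.coeff 0 = 0) : ∃ z ∈ WJ p J, x = p * z := by
  refine ⟨WittVector.mk p fun n => (_root_.frobeniusEquiv C p).symm (x.coeff (n + 1)), ?_, ?_⟩
  · intro n
    rw [coeff_mk]
    exact hJ.root_mem (hx (n + 1))
  · ext1 n
    rw [mul_comm]
    cases n with
    | zero => rw [mul_charP_coeff_zero, h0]
    | succ n =>
      rw [mul_charP_coeff_succ, coeff_mk, ← _root_.frobenius_def, frobenius_apply_frobeniusEquiv_symm]

/-- `W(J) ∩ p W(C) = p W(J)`. -/
theorem mem_WJ_of_p_mul {J : Ideal C} (hJ : IsPerf p J) {y : WittVector p C}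
    (h : (p : WittVector p C) * y ∈ WJ p J) : y ∈ WJ p J := by
  have h0 : ((p : WittVector p C) * y).coeff 0 = 0 := by rw [mul_comm, mul_charP_coeff_zero]
  obtain ⟨z, hz, hzy⟩ := exists_mul_p hJ h h0
  have : y = z := by
    ext1 n
    have h1 := congrArg (fun w => w.coeff (n + 1)) hzy
    simp only [mul_comm (p : WittVector p C), mul_charP_coeff_succ] at h1
    exact (_root_.frobeniusEquiv C p).injective h1
  rw [this]; exact hz

/-- `W(J) ∩ p^N W(C) = p^N W(J)`. -/
theorem mem_WJ_of_p_pow_mul {J : Ideal C} (hJ : IsPerf p J) (N : ℕ) {y : WittVector p C}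
    (h : (p : WittVector p C) ^ N * y ∈ WJ p J) : y ∈ WJ p J := by
  induction N generalizing y with
  | zero => simpa using h
  | succ N ih =>
    rw [pow_succ, mul_assoc] at h
    exact mem_WJ_of_p_mul hJ (ih h)

/-- `W(J)` is closed in the `p`-adic topology. -/
theorem mem_WJ_of_forall {J : Ideal C} {x : WittVector p C}
    (h : ∀ N : ℕ, ∃ y ∈ WJ p J, (p : WittVector p C) ^ N ∣ x - y) : x ∈ WJ p J := by
  intro n
  obtain ⟨y, hy, hxy⟩ := h (n + 1)
  rw [P202.Mix.coeff_eq_of_dvd_sub hxy (Nat.lt_succ_self n)]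
  exact hy n

/-- The reduction `W(J) → J`, `x ↦ x_0`, as an additive map. -/
noncomputable def toJ (J : Ideal C) : WJ p J →+ J where
  toFun x := ⟨x.1.coeff 0, coeff_zero_mem x.2⟩
  map_zero' := by ext; simp
  map_add' x y := by ext; simp [WittVector.add_coeff_zero]

omit [CharP C p] [PerfectRing C p] in
theorem toJ_surjective (J : Ideal C) : Function.Surjective (toJ (p := p) J) := fun a =>
  ⟨⟨teichmuller p a.1, teichmuller_mem_WJ a.2⟩, by ext; simp [toJ]⟩

omit [CharP C p] [PerfectRing C p] in
theorem toJ_smul (J : Ideal C) (c : WittVector p C) (x : WJ p J) :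
    toJ J (c • x) = c.coeff 0 • toJ J x := by
  ext; simp [toJ, WittVector.mul_coeff_zero]

theorem toJ_eq_zero {J : Ideal C} (hJ : IsPerf p J) {x : WJ p J} (h : toJ J x = 0) :
    ∃ z : WJ p J, x = (p : WittVector p C) • z := by
  have h0 : x.1.coeff 0 = 0 := congrArg Subtype.val h
  obtain ⟨z, hz, hxz⟩ := exists_mul_p hJ x.2 h0
  exact ⟨⟨z, hz⟩, Subtype.ext hxz⟩

omit [PerfectRing C p] in
theorem toJ_p_smul (J : Ideal C) (z : WJ p J) : toJ J ((p : WittVector p C) • z) = 0 := by
  have h : ((p : WittVector p C)).coeff 0 = 0 := by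
    have := mul_charP_coeff_zero (1 : WittVector p C)
    rwa [one_mul] at this
  rw [toJ_smul, h, zero_smul]

end Perfect

end P177.PJ
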